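import Mathlib

namespace Vale.Agent.P322

/-- `x log x` -/
noncomputable def eta (x : ℝ) : ℝ := x * Real.log x

/-- `(1+u) log (1+u) + (1-u) log (1-u)` -/
noncomputable def psi (u : ℝ) : ℝ := eta (1 + u) + eta (1 - u)

/-- derivative of `psi` -/
noncomputable def lam (u : ℝ) : ℝ := Real.log (1 + u) - Real.log (1 - u)

theorem psi_cont : Continuous psi := by
  unfold psi eta
  have h := Real.continuous_mul_log
  exact (h.comp (continuous_const.add continuous_id)).add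
    (h.comp (continuous_const.sub continuous_id))

theorem psi_zero : psi 0 = 0 := by simp [psi, eta]

theorem lam_zero : lam 0 = 0 := by simp [lam]

theorem psi_deriv (u : ℝ) (h1 : -1 < u) (h2 : u < 1) : HasDerivAt psi (lam u) u := by
  have a1 : HasDerivAt (fun x => x * Real.log x) (Real.log (1 + u) + 1) (1 + u) :=
    Real.hasDerivAt_mul_log (by linarith)
  have a2 : HasDerivAt (fun x => x * Real.log x) (Real.log (1 - u) + 1) (1 - u) :=
    Real.hasDerivAt_mul_log (by linarith)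
  have b1 : HasDerivAt (fun x : ℝ => 1 + x) 1 u := (hasDerivAt_id u).const_add 1
  have b2 : HasDerivAt (fun x : ℝ => 1 - x) (-1) u := (hasDerivAt_id u).const_sub 1
  have c1 := a1.comp u b1
  have c2 := a2.comp u b2
  have c3 := c1.add c2
  have e : (Real.log (1 + u) + 1) * 1 + (Real.log (1 - u) + 1) * (-1) = lam u := by
    unfold lam; ring
  rw [e] at c3
  exact c3

theorem lam_deriv (u : ℝ) (h1 : -1 < u) (h2 : u < 1) :
    HasDerivAt lam (1 / (1 + u) + 1 / (1 - u)) u := by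
  have b1 : HasDerivAt (fun x : ℝ => 1 + x) 1 u := (hasDerivAt_id u).const_add 1
  have b2 : HasDerivAt (fun x : ℝ => 1 - x) (-1) u := (hasDerivAt_id u).const_sub 1
  have c1 := b1.log (by linarith)
  have c2 := b2.log (by linarith)
  have c3 := c1.sub c2
  have e : 1 / (1 + u) - -1 / (1 - u) = 1 / (1 + u) + 1 / (1 - u) := by ring
  rw [e] at c3
  exact c3

theorem nonneg_of_deriv (g g' : ℝ → ℝ) (h0 : g 0 = 0)
    (hd : ∀ x ∈ Set.Ico (0 : ℝ) 1, HasDerivAt g (g' x) x)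
    (hpos : ∀ x ∈ Set.Ico (0 : ℝ) 1, 0 ≤ g' x) : ∀ x ∈ Set.Ico (0 : ℝ) 1, 0 ≤ g x := by
  have hm : MonotoneOn g (Set.Ico (0 : ℝ) 1) := by
    apply monotoneOn_of_deriv_nonneg (convex_Ico 0 1)
    · intro x hx
      exact (hd x hx).continuousAt.continuousWithinAt
    · intro x hx
      rw [interior_Ico] at hx
      exact (hd x ⟨hx.1.le, hx.2⟩).differentiableAt.differentiableWithinAt
    · intro x hx
      rw [interior_Ico] at hx
      rw [(hd x ⟨hx.1.le, hx.2⟩).deriv]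
      exact hpos x ⟨hx.1.le, hx.2⟩
  intro x hx
  rw [← h0]
  exact hm ⟨le_refl 0, zero_lt_one⟩ hx hx.1

theorem nonneg_closed (g : ℝ → ℝ) (hc : Continuous g)
    (h : ∀ x ∈ Set.Ico (0 : ℝ) 1, 0 ≤ g x) : ∀ x ∈ Set.Icc (0 : ℝ) 1, 0 ≤ g x := by
  have hcl : IsClosed {x : ℝ | 0 ≤ g x} := isClosed_le continuous_const hc
  have hsub : Set.Ico (0 : ℝ) 1 ⊆ {x : ℝ | 0 ≤ g x} := fun x hx => h x hx
  have := hcl.closure_subset_iff.mpr hsub
  rw [closure_Ico (zero_ne_one)] at this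
  exact fun x hx => this hx

theorem lam_nonneg (x : ℝ) (hx : x ∈ Set.Ico (0 : ℝ) 1) : 0 ≤ lam x := by
  unfold lam
  have : Real.log (1 - x) ≤ Real.log (1 + x) :=
    Real.log_le_log (by linarith [hx.2]) (by linarith [hx.1])
  linarith

theorem psi_nonneg (x : ℝ) (hx : x ∈ Set.Icc (0 : ℝ) 1) : 0 ≤ psi x := by
  apply nonneg_closed psi psi_cont _ x hx
  apply nonneg_of_deriv psi lam psi_zero
  · intro y hy
    exact psi_deriv y (by linarith [hy.1]) hy.2
  · exact lam_nonneg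

theorem pair_le (A a x : ℝ) (hA : 0 < A) (ha1 : -A ≤ a) (ha2 : a ≤ A) (hx0 : 0 ≤ x)
    (hx1 : x < 1) : 1 / (A - x * a) + 1 / (A + x * a) ≤ 2 / (A * (1 - x ^ 2)) := by
  have h1 : 0 < A - x * a := by nlinarith
  have h2 : 0 < A + x * a := by nlinarith
  have h3 : 0 < 1 - x ^ 2 := by nlinarith
  rw [div_add_div _ _ h1.ne' h2.ne', div_le_div_iff₀ (mul_pos h1 h2) (mul_pos hA h3)]
  have h4 : a ^ 2 ≤ A ^ 2 := by nlinarith
  have h5 : 0 ≤ x ^ 2 * (A ^ 2 - a ^ 2) := mul_nonneg (sq_nonneg x) (by linarith)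
  nlinarith

end Vale.Agent.P322
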