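import Mathlib
import Vale.Agent.P322.Analytic

namespace Vale.Agent.P322

theorem aff_bounds (A a r : ℝ) (hA : 0 < A) (ha1 : -A ≤ a) (ha2 : a ≤ A) (hr0 : 0 ≤ r)
    (hr1 : r < 1) : -A < r * a ∧ r * a < A := by
  constructor <;> nlinarith

theorem keyK (μ a : ℝ) (hμ1 : -1 < μ) (hμ2 : μ < 1) (ha1 : -(1 - μ) ≤ a) (ha2 : a ≤ 1 - μ)
    (ha3 : -(1 + μ) ≤ a) (ha4 : a ≤ 1 + μ) (ρ : ℝ) (hρ : ρ ∈ Set.Icc (0 : ℝ) 1) :
    psi (μ + ρ * a) + psi (μ - ρ * a) - 2 * psi μ ≤ 2 * a ^ 2 / (1 - μ ^ 2) * psi ρ := by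
  set c : ℝ := 2 * a ^ 2 / (1 - μ ^ 2) with hc
  have hA : 0 < 1 - μ := by linarith
  have hB : 0 < 1 + μ := by linarith
  have haff1 : ∀ r : ℝ, HasDerivAt (fun r : ℝ => μ + r * a) a r := by
    intro r
    have := ((hasDerivAt_id r).mul_const a).const_add μ
    simpa using this
  have haff2 : ∀ r : ℝ, HasDerivAt (fun r : ℝ => μ - r * a) (-a) r := by
    intro r
    have := ((hasDerivAt_id r).mul_const a).const_sub μ
    simpa using this
  have hin : ∀ r ∈ Set.Ico (0 : ℝ) 1, (-1 < μ + r * a ∧ μ + r * a < 1) ∧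
      (-1 < μ - r * a ∧ μ - r * a < 1) := by
    intro r hr
    obtain ⟨p1, p2⟩ := aff_bounds (1 - μ) a r hA ha1 ha2 hr.1 hr.2
    obtain ⟨q1, q2⟩ := aff_bounds (1 + μ) a r hB ha3 ha4 hr.1 hr.2
    refine ⟨⟨by linarith, by linarith⟩, ⟨by linarith, by linarith⟩⟩
  let D : ℝ → ℝ := fun r => c * psi r - (psi (μ + r * a) + psi (μ - r * a) - 2 * psi μ)
  let E : ℝ → ℝ := fun r => c * lam r - (lam (μ + r * a) * a + lam (μ - r * a) * (-a))
  let E' : ℝ → ℝ := fun r => c * (1 / (1 + r) + 1 / (1 - r))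
    - ((1 / (1 + (μ + r * a)) + 1 / (1 - (μ + r * a))) * a * a
      + (1 / (1 + (μ - r * a)) + 1 / (1 - (μ - r * a))) * (-a) * (-a))
  have hD : ∀ r ∈ Set.Ico (0 : ℝ) 1, HasDerivAt D (E r) r := by
    intro r hr
    obtain ⟨⟨i1, i2⟩, ⟨i3, i4⟩⟩ := hin r hr
    have d0 := (psi_deriv r (by linarith [hr.1]) hr.2).const_mul c
    have d1 := (psi_deriv (μ + r * a) i1 i2).comp r (haff1 r)
    have d2 := (psi_deriv (μ - r * a) i3 i4).comp r (haff2 r)
    have d3 := d0.sub ((d1.add d2).sub_const (2 * psi μ))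
    exact d3
  have hE : ∀ r ∈ Set.Ico (0 : ℝ) 1, HasDerivAt E (E' r) r := by
    intro r hr
    obtain ⟨⟨i1, i2⟩, ⟨i3, i4⟩⟩ := hin r hr
    have d0 := (lam_deriv r (by linarith [hr.1]) hr.2).const_mul c
    have d1 := ((lam_deriv (μ + r * a) i1 i2).comp r (haff1 r)).mul_const a
    have d2 := ((lam_deriv (μ - r * a) i3 i4).comp r (haff2 r)).mul_const (-a)
    have d3 := d0.sub (d1.add d2)
    exact d3
  have hE'pos : ∀ r ∈ Set.Ico (0 : ℝ) 1, 0 ≤ E' r := by
    intro r hr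
    have p1 := pair_le (1 - μ) a r hA ha1 ha2 hr.1 hr.2
    have p2 := pair_le (1 + μ) a r hB ha3 ha4 hr.1 hr.2
    have h3 : 0 < 1 - r ^ 2 := by nlinarith [hr.1, hr.2]
    have e1 : (1 / (1 + (μ + r * a)) + 1 / (1 - (μ + r * a))) * a * a
        + (1 / (1 + (μ - r * a)) + 1 / (1 - (μ - r * a))) * (-a) * (-a)
        = a ^ 2 * ((1 / (1 - μ - r * a) + 1 / (1 - μ + r * a))
          + (1 / (1 + μ - r * a) + 1 / (1 + μ + r * a))) := by
      have t1 : 1 + (μ + r * a) = 1 + μ + r * a := by ring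
      have t2 : 1 - (μ + r * a) = 1 - μ - r * a := by ring
      have t3 : 1 + (μ - r * a) = 1 + μ - r * a := by ring
      have t4 : 1 - (μ - r * a) = 1 - μ + r * a := by ring
      rw [t1, t2, t3, t4]
      ring
    have e2 : c * (1 / (1 + r) + 1 / (1 - r))
        = a ^ 2 * (2 / ((1 - μ) * (1 - r ^ 2)) + 2 / ((1 + μ) * (1 - r ^ 2))) := by
      rw [hc]
      have g1 : (1 + r) ≠ 0 := by linarith [hr.1]
      have g2 : (1 - r) ≠ 0 := by linarith [hr.2]
      have g3 : (1 - μ ^ 2) ≠ 0 := by nlinarith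
      have g4 : (1 - r ^ 2) ≠ 0 := h3.ne'
      field_simp
      ring
    show 0 ≤ c * (1 / (1 + r) + 1 / (1 - r))
      - ((1 / (1 + (μ + r * a)) + 1 / (1 - (μ + r * a))) * a * a
        + (1 / (1 + (μ - r * a)) + 1 / (1 - (μ - r * a))) * (-a) * (-a))
    rw [e1, e2, ← mul_sub]
    apply mul_nonneg (sq_nonneg a)
    linarith
  have hE0 : E 0 = 0 := by
    show c * lam 0 - (lam (μ + 0 * a) * a + lam (μ - 0 * a) * (-a)) = 0
    rw [lam_zero]
    simp
  have hD0 : D 0 = 0 := by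
    show c * psi 0 - (psi (μ + 0 * a) + psi (μ - 0 * a) - 2 * psi μ) = 0
    rw [psi_zero]
    simp
    ring
  have hEpos := nonneg_of_deriv E E' hE0 hE hE'pos
  have hDpos := nonneg_of_deriv D E hD0 hD hEpos
  have hDc : Continuous D := by
    have c1 : Continuous fun r : ℝ => psi (μ + r * a) :=
      psi_cont.comp (continuous_const.add (continuous_id.mul continuous_const))
    have c2 : Continuous fun r : ℝ => psi (μ - r * a) :=
      psi_cont.comp (continuous_const.sub (continuous_id.mul continuous_const))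
    exact (continuous_const.mul psi_cont).sub ((c1.add c2).sub continuous_const)
  have := nonneg_closed D hDc hDpos ρ hρ
  have h' : 0 ≤ c * psi ρ - (psi (μ + ρ * a) + psi (μ - ρ * a) - 2 * psi μ) := this
  linarith

end Vale.Agent.P322
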