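import Mathlib
import Vale.Agent.P322.Key
import Vale.Agent.P047.DiffIneq

namespace Vale.Agent.P322

open Finset

/-- joint law of `(f(X), Y_i)`: `X` uniform on the cube, `Y_i` equals `X_i` with probability
`1 - ε` and is flipped with probability `ε`. -/
noncomputable def joint {n : ℕ} (f : (Fin n → Bool) → Bool) (ε : ℝ) (i : Fin n) (u v : Bool) : ℝ :=
  (∑ x : Fin n → Bool, if f x = u then (if x i = v then 1 - ε else ε) else 0) / 2 ^ n

/-- mutual information, in bits, of a joint law on `Bool × Bool` -/
noncomputable def mutualInfo (p : Bool → Bool → ℝ) : ℝ :=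
  ∑ u, ∑ v, p u v * Real.logb 2 (p u v / ((∑ v', p u v') * (∑ u', p u' v)))

/-- binary entropy in bits -/
noncomputable def h2 (ε : ℝ) : ℝ := -(ε * Real.logb 2 ε) - (1 - ε) * Real.logb 2 (1 - ε)

theorem term_split (p q r : ℝ) (hp : 0 ≤ p) (hq : p ≤ q) (hr : p ≤ r) :
    p * Real.logb 2 (p / (q * r)) * Real.log 2 = eta p - p * Real.log q - p * Real.log r := by
  have hl : Real.log 2 ≠ 0 := (Real.log_pos one_lt_two).ne'
  rcases hp.eq_or_lt with h | h
  · rw [← h]
    simp [eta]
  · have hq' : 0 < q := lt_of_lt_of_le h hq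
    have hr' : 0 < r := lt_of_lt_of_le h hr
    rw [Real.logb, Real.log_div h.ne' (mul_pos hq' hr').ne', Real.log_mul hq'.ne' hr'.ne']
    unfold eta
    field_simp
    ring

theorem mi_four (p : Bool → Bool → ℝ) (hp : ∀ u v, 0 ≤ p u v) :
    mutualInfo p * Real.log 2
      = eta (p true true) + eta (p true false) + eta (p false true) + eta (p false false)
        - eta (p true true + p true false) - eta (p false true + p false false)
        - eta (p true true + p false true) - eta (p true false + p false false) := by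
  unfold mutualInfo
  simp only [Fintype.sum_bool]
  have t1 := term_split (p true true) (p true true + p true false) (p true true + p false true)
    (hp _ _) (by linarith [hp true false]) (by linarith [hp false true])
  have t2 := term_split (p true false) (p true true + p true false) (p true false + p false false)
    (hp _ _) (by linarith [hp true true]) (by linarith [hp false false])
  have t3 := term_split (p false true) (p false true + p false false) (p true true + p false true)
    (hp _ _) (by linarith [hp false false]) (by linarith [hp true true])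
  have t4 := term_split (p false false) (p false true + p false false)
    (p true false + p false false)
    (hp _ _) (by linarith [hp false true]) (by linarith [hp true false])
  simp only [eta] at t1 t2 t3 t4 ⊢
  linear_combination t1 + t2 + t3 + t4

theorem eta_div (s c : ℝ) (hs : 0 ≤ s) (hc : 0 < c) :
    eta (s / c) = (eta s - s * Real.log c) / c := by
  rcases hs.eq_or_lt with h | h
  · rw [← h]
    simp [eta]
  · unfold eta
    rw [Real.log_div h.ne' hc.ne']
    ring

theorem log_four : Real.log 4 = 2 * Real.log 2 := by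
  rw [show (4 : ℝ) = 2 ^ 2 by norm_num, Real.log_pow]
  norm_num

theorem mi_formula (μ t : ℝ) (h1 : 0 ≤ 1 + (μ + t)) (h2 : 0 ≤ 1 + (μ - t))
    (h3 : 0 ≤ 1 - (μ + t)) (h4 : 0 ≤ 1 - (μ - t)) :
    mutualInfo (fun u v => (1 + P047.sg u * (μ + P047.sg v * t)) / 4) * Real.log 2
      = (psi (μ + t) + psi (μ - t) - 2 * psi μ) / 4 := by
  have a11 : (1 + P047.sg true * (μ + P047.sg true * t)) / 4 = (1 + (μ + t)) / 4 := by
    simp only [P047.sg_true]; ring
  have a10 : (1 + P047.sg true * (μ + P047.sg false * t)) / 4 = (1 + (μ - t)) / 4 := by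
    simp only [P047.sg_true, P047.sg_false]; ring
  have a01 : (1 + P047.sg false * (μ + P047.sg true * t)) / 4 = (1 - (μ + t)) / 4 := by
    simp only [P047.sg_true, P047.sg_false]; ring
  have a00 : (1 + P047.sg false * (μ + P047.sg false * t)) / 4 = (1 - (μ - t)) / 4 := by
    simp only [P047.sg_false]; ring
  rw [mi_four]
  · simp only [a11, a10, a01, a00]
    have m1 : (1 + (μ + t)) / 4 + (1 + (μ - t)) / 4 = (1 + μ) / 2 := by ring
    have m2 : (1 - (μ + t)) / 4 + (1 - (μ - t)) / 4 = (1 - μ) / 2 := by ring
    have m3 : (1 + (μ + t)) / 4 + (1 - (μ + t)) / 4 = 1 / 2 := by ring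
    have m4 : (1 + (μ - t)) / 4 + (1 - (μ - t)) / 4 = 1 / 2 := by ring
    rw [m1, m2, m3, m4, eta_div _ 4 h1 (by norm_num), eta_div _ 4 h2 (by norm_num),
      eta_div _ 4 h3 (by norm_num), eta_div _ 4 h4 (by norm_num),
      eta_div (1 + μ) 2 (by linarith) (by norm_num), eta_div (1 - μ) 2 (by linarith) (by norm_num),
      eta_div 1 2 (by norm_num) (by norm_num), log_four]
    have e1 : eta 1 = 0 := by simp [eta]
    rw [e1]
    unfold psi
    ring
  · intro u v
    cases u <;> cases v
    · rw [a00]; linarith
    · rw [a01]; linarith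
    · rw [a10]; linarith
    · rw [a11]; linarith

theorem h2_formula (ε : ℝ) (h0 : 0 ≤ ε) (h1 : ε ≤ 1 / 2) :
    (1 - h2 ε) * Real.log 2 = psi (1 - 2 * ε) / 2 := by
  have hl : Real.log 2 ≠ 0 := (Real.log_pos one_lt_two).ne'
  have e1 : (1 - h2 ε) * Real.log 2 = Real.log 2 + eta ε + eta (1 - ε) := by
    unfold h2 eta Real.logb
    field_simp
    ring
  have e2 : eta ε = (eta (1 - (1 - 2 * ε)) - (1 - (1 - 2 * ε)) * Real.log 2) / 2 := by
    rw [← eta_div _ 2 (by linarith) (by norm_num)]
    congr 1
    ring
  have e3 : eta (1 - ε) = (eta (1 + (1 - 2 * ε)) - (1 + (1 - 2 * ε)) * Real.log 2) / 2 := by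
    rw [← eta_div _ 2 (by linarith) (by norm_num)]
    congr 1
    ring
  rw [e1, e2, e3]
  unfold psi
  ring

end Vale.Agent.P322
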