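import Mathlib
import Vale.Agent.P322.Info

namespace Vale.Agent.P322

open Finset

variable {n : ℕ}

/-- the `±1`-valued version of `f` -/
noncomputable def toR (f : (Fin n → Bool) → Bool) : (Fin n → Bool) → ℝ := fun x => P047.sg (f x)

theorem toR_bool (f : (Fin n → Bool) → Bool) (x : Fin n → Bool) : toR f x = 1 ∨ toR f x = -1 := by
  unfold toR
  cases f x <;> simp [P047.sg]

theorem sum_sg_coord (i : Fin n) : ∑ x : Fin n → Bool, P047.sg (x i) = 0 := by
  have h := P047.sum_prod_cube (n := n) (fun j b => if j = i then P047.sg b else 1)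
  have h1 : ∀ x : Fin n → Bool, ∏ j, (if j = i then P047.sg (x j) else 1) = P047.sg (x i) := by
    intro x
    rw [Finset.prod_ite_eq' Finset.univ i (fun j => P047.sg (x j))]
    simp
  simp_rw [h1] at h
  rw [h]
  apply Finset.prod_eq_zero (Finset.mem_univ i)
  simp [P047.sg]

theorem joint_formula (f : (Fin n → Bool) → Bool) (ε : ℝ) (i : Fin n) (u v : Bool) :
    joint f ε i u v = (1 + P047.sg u * (P047.fhat (toR f) ∅
      + P047.sg v * ((1 - 2 * ε) * P047.fhat (toR f) {i}))) / 4 := by
  unfold joint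
  have hpt : ∀ x : Fin n → Bool, (if f x = u then (if x i = v then 1 - ε else ε) else 0)
      = (1 + P047.sg u * toR f x + P047.sg v * (1 - 2 * ε) * P047.sg (x i)
        + P047.sg u * P047.sg v * (1 - 2 * ε) * (toR f x * P047.sg (x i))) / 4 := by
    intro x
    unfold toR
    cases f x <;> cases u <;> cases x i <;> cases v <;> simp [P047.sg] <;> ring
  simp_rw [hpt]
  have hm : ∑ x : Fin n → Bool, toR f x = P047.fhat (toR f) ∅ * 2 ^ n := by
    unfold P047.fhat
    rw [div_mul_cancel₀ _ (by positivity)]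
    simp
  have ha : ∑ x : Fin n → Bool, toR f x * P047.sg (x i) = P047.fhat (toR f) {i} * 2 ^ n := by
    unfold P047.fhat
    rw [div_mul_cancel₀ _ (by positivity)]
    simp
  have h1 : ∑ _x : Fin n → Bool, (1 : ℝ) = 2 ^ n := by
    simp
  rw [← Finset.sum_div, Finset.sum_add_distrib, Finset.sum_add_distrib, Finset.sum_add_distrib,
    ← Finset.mul_sum, ← Finset.mul_sum, ← Finset.mul_sum, hm, ha, h1, sum_sg_coord]
  have h2 : (2 : ℝ) ^ n ≠ 0 := by positivity
  field_simp
  ring

theorem joint_nonneg (f : (Fin n → Bool) → Bool) (ε : ℝ) (h0 : 0 ≤ ε) (h1 : ε ≤ 1) (i : Fin n)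
    (u v : Bool) : 0 ≤ joint f ε i u v := by
  unfold joint
  apply div_nonneg _ (by positivity)
  apply Finset.sum_nonneg
  intro x _
  split_ifs <;> linarith

theorem cf_zero (F : (Fin n → Bool) → ℝ) (S : Finset (Fin n)) : P047.cf F 0 S = P047.fhat F S := by
  unfold P047.cf
  rw [Finset.sum_eq_single S]
  · simp
  · intro R _ hne
    split_ifs with h
    · have : (R \ S).card ≠ 0 := by
        intro h0
        rw [Finset.card_eq_zero, Finset.sdiff_eq_empty_iff_subset] at h0
        exact hne (Finset.Subset.antisymm h0 h)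
      rw [zero_pow this, mul_zero]
    · rfl
  · intro h
    exact absurd (Finset.mem_univ S) h

theorem bessel (f : (Fin n → Bool) → Bool) :
    P047.fhat (toR f) ∅ ^ 2 + ∑ i, P047.fhat (toR f) {i} ^ 2 ≤ 1 := by
  have h := P047.total_one (toR f) (toR_bool f) 0
  simp only [cf_zero] at h
  have h' : ∑ S : Finset (Fin n), P047.fhat (toR f) S ^ 2 = 1 := by
    rw [← h]
    apply Finset.sum_congr rfl
    intro S _
    norm_num
    ring
  let e : Fin n ↪ Finset (Fin n) := ⟨fun i => {i}, Finset.singleton_injective⟩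
  have hnot : (∅ : Finset (Fin n)) ∉ Finset.univ.map e := by
    simp [e]
  have hsub : ∑ S ∈ insert ∅ (Finset.univ.map e), P047.fhat (toR f) S ^ 2
      ≤ ∑ S : Finset (Fin n), P047.fhat (toR f) S ^ 2 :=
    Finset.sum_le_univ_sum_of_nonneg (fun S => sq_nonneg _)
  rw [Finset.sum_insert hnot, Finset.sum_map, h'] at hsub
  exact hsub

/-- **Coordinatewise inequality for arbitrary Boolean functions.** -/
theorem coordinatewise (f : (Fin n → Bool) → Bool) (ε : ℝ) (h0 : 0 ≤ ε) (h1 : ε ≤ 1 / 2) :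
    ∑ i, mutualInfo (joint f ε i) ≤ 1 - h2 ε := by
  have hl : 0 < Real.log 2 := Real.log_pos one_lt_two
  set μ := P047.fhat (toR f) ∅ with hμ
  set ρ := 1 - 2 * ε with hρ
  have hρI : ρ ∈ Set.Icc (0 : ℝ) 1 := ⟨by linarith, by linarith⟩
  have hpsi : 0 ≤ psi ρ := psi_nonneg ρ hρI
  -- constraints from nonnegativity of the joint laws
  have hc : ∀ (i : Fin n) (δ : ℝ), 0 ≤ δ → δ ≤ 1 →
      0 ≤ 1 + (μ + (1 - 2 * δ) * P047.fhat (toR f) {i}) ∧
      0 ≤ 1 + (μ - (1 - 2 * δ) * P047.fhat (toR f) {i}) ∧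
      0 ≤ 1 - (μ + (1 - 2 * δ) * P047.fhat (toR f) {i}) ∧
      0 ≤ 1 - (μ - (1 - 2 * δ) * P047.fhat (toR f) {i}) := by
    intro i δ hd0 hd1
    have q11 := joint_nonneg f δ hd0 hd1 i true true
    have q10 := joint_nonneg f δ hd0 hd1 i true false
    have q01 := joint_nonneg f δ hd0 hd1 i false true
    have q00 := joint_nonneg f δ hd0 hd1 i false false
    rw [joint_formula] at q11 q10 q01 q00
    simp only [P047.sg_true, P047.sg_false] at q11 q10 q01 q00
    refine ⟨by linarith, by linarith, by linarith, by linarith⟩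
  have hmi : ∀ i : Fin n, mutualInfo (joint f ε i) * Real.log 2
      = (psi (μ + ρ * P047.fhat (toR f) {i}) + psi (μ - ρ * P047.fhat (toR f) {i})
        - 2 * psi μ) / 4 := by
    intro i
    obtain ⟨c1, c2, c3, c4⟩ := hc i ε h0 (by linarith)
    have hj : joint f ε i = fun u v => (1 + P047.sg u * (μ
        + P047.sg v * (ρ * P047.fhat (toR f) {i}))) / 4 := by
      funext u v
      exact joint_formula f ε i u v
    rw [hj]
    exact mi_formula μ (ρ * P047.fhat (toR f) {i}) c1 c2 c3 c4
  have hbes := bessel f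
  rw [← hμ] at hbes
  have hmain : ∑ i, mutualInfo (joint f ε i) * Real.log 2 ≤ psi ρ / 2 := by
    by_cases hμ1 : μ ^ 2 = 1
    · -- constant function
      have hz : ∀ i : Fin n, P047.fhat (toR f) {i} = 0 := by
        intro i
        have hs : ∑ j, P047.fhat (toR f) {j} ^ 2 ≤ 0 := by linarith
        have hi : P047.fhat (toR f) {i} ^ 2 ≤ ∑ j, P047.fhat (toR f) {j} ^ 2 :=
          Finset.single_le_sum (f := fun j => P047.fhat (toR f) {j} ^ 2)
            (fun j _ => sq_nonneg _) (Finset.mem_univ i)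
        have : P047.fhat (toR f) {i} ^ 2 = 0 := le_antisymm (by linarith) (sq_nonneg _)
        exact pow_eq_zero_iff (two_ne_zero) |>.mp this
      have : ∑ i, mutualInfo (joint f ε i) * Real.log 2 = 0 := by
        apply Finset.sum_eq_zero
        intro i _
        rw [hmi i, hz i]
        simp
        ring
      rw [this]
      linarith
    · have hsq : μ ^ 2 < 1 := by
        have h3 : μ ^ 2 ≤ 1 := by
          have : 0 ≤ ∑ j, P047.fhat (toR f) {j} ^ 2 := Finset.sum_nonneg (fun j _ => sq_nonneg _)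
          linarith
        exact lt_of_le_of_ne h3 hμ1
      have hm1 : -1 < μ := by nlinarith
      have hm2 : μ < 1 := by nlinarith
      have hden : 0 < 1 - μ ^ 2 := by linarith
      have hterm : ∀ i : Fin n, mutualInfo (joint f ε i) * Real.log 2
          ≤ P047.fhat (toR f) {i} ^ 2 * (psi ρ / (2 * (1 - μ ^ 2))) := by
        intro i
        obtain ⟨c1, c2, c3, c4⟩ := hc i 0 (le_refl 0) zero_le_one
        have hk := keyK μ (P047.fhat (toR f) {i}) hm1 hm2 (by linarith) (by linarith)
          (by linarith) (by linarith) ρ hρI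
        rw [hmi i]
        have e : P047.fhat (toR f) {i} ^ 2 * (psi ρ / (2 * (1 - μ ^ 2)))
            = (2 * P047.fhat (toR f) {i} ^ 2 / (1 - μ ^ 2) * psi ρ) / 4 := by
          field_simp
          ring
        rw [e]
        linarith
      calc ∑ i, mutualInfo (joint f ε i) * Real.log 2
          ≤ ∑ i, P047.fhat (toR f) {i} ^ 2 * (psi ρ / (2 * (1 - μ ^ 2))) :=
            Finset.sum_le_sum (fun i _ => hterm i)
        _ = (∑ i, P047.fhat (toR f) {i} ^ 2) * (psi ρ / (2 * (1 - μ ^ 2))) := by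
            rw [Finset.sum_mul]
        _ ≤ (1 - μ ^ 2) * (psi ρ / (2 * (1 - μ ^ 2))) := by
            apply mul_le_mul_of_nonneg_right (by linarith)
            positivity
        _ = psi ρ / 2 := by
            field_simp
  rw [← Finset.sum_mul, ← h2_formula ε h0 h1] at hmain
  exact le_of_mul_le_mul_right hmain hl

/-- refined form with the level-one weight -/
theorem coordinatewise_refined (f : (Fin n → Bool) → Bool) (ε : ℝ) (h0 : 0 ≤ ε) (h1 : ε ≤ 1 / 2) :
    (1 - P047.fhat (toR f) ∅ ^ 2) * ∑ i, mutualInfo (joint f ε i)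
      ≤ (∑ i, P047.fhat (toR f) {i} ^ 2) * (1 - h2 ε) := by
  have hl : 0 < Real.log 2 := Real.log_pos one_lt_two
  set μ := P047.fhat (toR f) ∅ with hμ
  set ρ := 1 - 2 * ε with hρ
  have hρI : ρ ∈ Set.Icc (0 : ℝ) 1 := ⟨by linarith, by linarith⟩
  have hpsi : 0 ≤ psi ρ := psi_nonneg ρ hρI
  -- constraints from nonnegativity of the joint laws
  have hc : ∀ (i : Fin n) (δ : ℝ), 0 ≤ δ → δ ≤ 1 →
      0 ≤ 1 + (μ + (1 - 2 * δ) * P047.fhat (toR f) {i}) ∧
      0 ≤ 1 + (μ - (1 - 2 * δ) * P047.fhat (toR f) {i}) ∧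
      0 ≤ 1 - (μ + (1 - 2 * δ) * P047.fhat (toR f) {i}) ∧
      0 ≤ 1 - (μ - (1 - 2 * δ) * P047.fhat (toR f) {i}) := by
    intro i δ hd0 hd1
    have q11 := joint_nonneg f δ hd0 hd1 i true true
    have q10 := joint_nonneg f δ hd0 hd1 i true false
    have q01 := joint_nonneg f δ hd0 hd1 i false true
    have q00 := joint_nonneg f δ hd0 hd1 i false false
    rw [joint_formula] at q11 q10 q01 q00
    simp only [P047.sg_true, P047.sg_false] at q11 q10 q01 q00
    refine ⟨by linarith, by linarith, by linarith, by linarith⟩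
  have hmi : ∀ i : Fin n, mutualInfo (joint f ε i) * Real.log 2
      = (psi (μ + ρ * P047.fhat (toR f) {i}) + psi (μ - ρ * P047.fhat (toR f) {i})
        - 2 * psi μ) / 4 := by
    intro i
    obtain ⟨c1, c2, c3, c4⟩ := hc i ε h0 (by linarith)
    have hj : joint f ε i = fun u v => (1 + P047.sg u * (μ
        + P047.sg v * (ρ * P047.fhat (toR f) {i}))) / 4 := by
      funext u v
      exact joint_formula f ε i u v
    rw [hj]
    exact mi_formula μ (ρ * P047.fhat (toR f) {i}) c1 c2 c3 c4
  have hbes := bessel f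
  rw [← hμ] at hbes
  have hW : 0 ≤ ∑ j, P047.fhat (toR f) {j} ^ 2 := Finset.sum_nonneg (fun j _ => sq_nonneg _)
  have hmain : (1 - μ ^ 2) * ∑ i, mutualInfo (joint f ε i) * Real.log 2
      ≤ (∑ i, P047.fhat (toR f) {i} ^ 2) * (psi ρ / 2) := by
    by_cases hμ1 : μ ^ 2 = 1
    · -- constant function
      have hz : ∀ i : Fin n, P047.fhat (toR f) {i} = 0 := by
        intro i
        have hs : ∑ j, P047.fhat (toR f) {j} ^ 2 ≤ 0 := by linarith
        have hi : P047.fhat (toR f) {i} ^ 2 ≤ ∑ j, P047.fhat (toR f) {j} ^ 2 :=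
          Finset.single_le_sum (f := fun j => P047.fhat (toR f) {j} ^ 2)
            (fun j _ => sq_nonneg _) (Finset.mem_univ i)
        have : P047.fhat (toR f) {i} ^ 2 = 0 := le_antisymm (by linarith) (sq_nonneg _)
        exact pow_eq_zero_iff (two_ne_zero) |>.mp this
      have : ∑ i, mutualInfo (joint f ε i) * Real.log 2 = 0 := by
        apply Finset.sum_eq_zero
        intro i _
        rw [hmi i, hz i]
        simp
        ring
      rw [this, mul_zero]
      exact mul_nonneg hW (by linarith)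
    · have hsq : μ ^ 2 < 1 := by
        have h3 : μ ^ 2 ≤ 1 := by
          have : 0 ≤ ∑ j, P047.fhat (toR f) {j} ^ 2 := Finset.sum_nonneg (fun j _ => sq_nonneg _)
          linarith
        exact lt_of_le_of_ne h3 hμ1
      have hm1 : -1 < μ := by nlinarith
      have hm2 : μ < 1 := by nlinarith
      have hden : 0 < 1 - μ ^ 2 := by linarith
      have hterm : ∀ i : Fin n, mutualInfo (joint f ε i) * Real.log 2
          ≤ P047.fhat (toR f) {i} ^ 2 * (psi ρ / (2 * (1 - μ ^ 2))) := by
        intro i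
        obtain ⟨c1, c2, c3, c4⟩ := hc i 0 (le_refl 0) zero_le_one
        have hk := keyK μ (P047.fhat (toR f) {i}) hm1 hm2 (by linarith) (by linarith)
          (by linarith) (by linarith) ρ hρI
        rw [hmi i]
        have e : P047.fhat (toR f) {i} ^ 2 * (psi ρ / (2 * (1 - μ ^ 2)))
            = (2 * P047.fhat (toR f) {i} ^ 2 / (1 - μ ^ 2) * psi ρ) / 4 := by
          field_simp
          ring
        rw [e]
        linarith
      have hs : ∑ i, mutualInfo (joint f ε i) * Real.log 2
          ≤ (∑ i, P047.fhat (toR f) {i} ^ 2) * (psi ρ / (2 * (1 - μ ^ 2))) := by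
        rw [Finset.sum_mul]
        exact Finset.sum_le_sum (fun i _ => hterm i)
      calc (1 - μ ^ 2) * ∑ i, mutualInfo (joint f ε i) * Real.log 2
          ≤ (1 - μ ^ 2) * ((∑ i, P047.fhat (toR f) {i} ^ 2) * (psi ρ / (2 * (1 - μ ^ 2)))) :=
            mul_le_mul_of_nonneg_left hs hden.le
        _ = (∑ i, P047.fhat (toR f) {i} ^ 2) * (psi ρ / 2) := by
            field_simp
  rw [← Finset.sum_mul, ← h2_formula ε h0 h1, ← mul_assoc, ← mul_assoc] at hmain
  exact le_of_mul_le_mul_right hmain hl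


end Vale.Agent.P322
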