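import Mathlib
import Vale.Agent.P322.Main

namespace Vale.Agent.P322

open Finset

variable {n : ℕ}

/-- probability of the noise pattern `z` (`z i = false` means that coordinate `i` is flipped) -/
noncomputable def noise (ε : ℝ) (z : Fin n → Bool) : ℝ := ∏ i, if z i then 1 - ε else ε

/-- joint law of `(f(X), ∏_{i ∈ S} Y_i)` where `Y_i = X_i Z_i`, `X` uniform, `Z` the noise -/
noncomputable def jointPar (f : (Fin n → Bool) → Bool) (ε : ℝ) (S : Finset (Fin n))
    (u v : Bool) : ℝ :=
  (∑ x : Fin n → Bool, ∑ z : Fin n → Bool,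
    if f x = u ∧ ∏ i ∈ S, (P047.sg (x i) * P047.sg (z i)) = P047.sg v then noise ε z else 0) / 2 ^ n

/-- characters -/
noncomputable def chi (S : Finset (Fin n)) (x : Fin n → Bool) : ℝ := ∏ i ∈ S, P047.sg (x i)

theorem chi_pm (S : Finset (Fin n)) (x : Fin n → Bool) : chi S x = 1 ∨ chi S x = -1 := by
  unfold chi
  induction S using Finset.induction_on with
  | empty => simp
  | insert a s ha ih =>
    rw [Finset.prod_insert ha]
    rcases ih with h | h <;> rw [h] <;> cases x a <;> simp [P047.sg]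

theorem noise_eq_wt (ε : ℝ) (z : Fin n → Bool) : noise ε z = P047.wt (1 - 2 * ε) z := by
  unfold noise P047.wt
  apply Finset.prod_congr rfl
  intro i _
  cases z i <;> simp [P047.sg] <;> ring

theorem noise_nonneg (ε : ℝ) (h0 : 0 ≤ ε) (h1 : ε ≤ 1) (z : Fin n → Bool) : 0 ≤ noise ε z := by
  unfold noise
  apply Finset.prod_nonneg
  intro i _
  split_ifs <;> linarith

theorem sum_wt_chi (t : ℝ) (S : Finset (Fin n)) :
    ∑ z : Fin n → Bool, P047.wt t z * chi S z = t ^ S.card := by
  have h : ∀ z : Fin n → Bool, P047.wt t z * chi S z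
      = ∏ i, (((1 + t * P047.sg (z i)) / 2) * (if i ∈ S then P047.sg (z i) else 1)) := by
    intro z
    rw [Finset.prod_mul_distrib]
    unfold P047.wt chi
    congr 1
    rw [Finset.prod_ite_mem, Finset.univ_inter]
  simp_rw [h]
  rw [P047.sum_prod_cube (fun i b => ((1 + t * P047.sg b) / 2) * (if i ∈ S then P047.sg b else 1))]
  have : ∀ i : Fin n, ((1 + t * P047.sg true) / 2 * (if i ∈ S then P047.sg true else 1)
      + (1 + t * P047.sg false) / 2 * (if i ∈ S then P047.sg false else 1))
      = if i ∈ S then t else 1 := by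
    intro i
    split_ifs <;> simp [P047.sg] <;> ring
  simp_rw [this]
  rw [Finset.prod_ite_mem, Finset.univ_inter, Finset.prod_const]

theorem sum_chi (S : Finset (Fin n)) (hS : S ≠ ∅) : ∑ x : Fin n → Bool, chi S x = 0 := by
  have h := sum_wt_chi (n := n) 0 S
  have hc : S.card ≠ 0 := by
    rw [Ne, Finset.card_eq_zero]
    exact hS
  rw [zero_pow hc] at h
  have hw : ∀ z : Fin n → Bool, P047.wt 0 z = (1 / 2) ^ n := by
    intro z
    unfold P047.wt
    simp
  simp_rw [hw] at h
  rw [← Finset.mul_sum] at h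
  rcases mul_eq_zero.mp h with h' | h'
  · exact absurd h' (by positivity)
  · exact h'

theorem jointPar_formula (f : (Fin n → Bool) → Bool) (ε : ℝ) (S : Finset (Fin n)) (hS : S ≠ ∅)
    (u v : Bool) :
    jointPar f ε S u v = (1 + P047.sg u * (P047.fhat (toR f) ∅
      + P047.sg v * ((1 - 2 * ε) ^ S.card * P047.fhat (toR f) S))) / 4 := by
  unfold jointPar
  have hpt : ∀ x z : Fin n → Bool,
      (if f x = u ∧ ∏ i ∈ S, (P047.sg (x i) * P047.sg (z i)) = P047.sg v then noise ε z else 0)
      = (1 + P047.sg u * toR f x) / 2 * (P047.wt (1 - 2 * ε) z / 2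
        + P047.sg v * chi S x / 2 * (P047.wt (1 - 2 * ε) z * chi S z)) := by
    intro x z
    rw [Finset.prod_mul_distrib, noise_eq_wt]
    change (if f x = u ∧ chi S x * chi S z = P047.sg v then _ else _) = _
    unfold toR
    rcases chi_pm S x with h1 | h1 <;> rcases chi_pm S z with h2 | h2 <;> rw [h1, h2] <;>
      cases f x <;> cases u <;> cases v <;> simp [P047.sg] <;> norm_num <;> ring
  simp_rw [hpt]
  have hz : ∀ x : Fin n → Bool, ∑ z : Fin n → Bool, (1 + P047.sg u * toR f x) / 2
      * (P047.wt (1 - 2 * ε) z / 2 + P047.sg v * chi S x / 2 * (P047.wt (1 - 2 * ε) z * chi S z))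
      = (1 + P047.sg u * toR f x + P047.sg v * (1 - 2 * ε) ^ S.card * chi S x
        + P047.sg u * P047.sg v * (1 - 2 * ε) ^ S.card * (toR f x * chi S x)) / 4 := by
    intro x
    rw [← Finset.mul_sum, Finset.sum_add_distrib, ← Finset.sum_div, P047.sum_wt,
      ← Finset.mul_sum, sum_wt_chi]
    ring
  simp_rw [hz]
  have hm : ∑ x : Fin n → Bool, toR f x = P047.fhat (toR f) ∅ * 2 ^ n := by
    unfold P047.fhat
    rw [div_mul_cancel₀ _ (by positivity)]
    simp
  have ha : ∑ x : Fin n → Bool, toR f x * chi S x = P047.fhat (toR f) S * 2 ^ n := by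
    unfold P047.fhat chi
    rw [div_mul_cancel₀ _ (by positivity)]
  have h1 : ∑ _x : Fin n → Bool, (1 : ℝ) = 2 ^ n := by
    simp
  rw [← Finset.sum_div, Finset.sum_add_distrib, Finset.sum_add_distrib, Finset.sum_add_distrib,
    ← Finset.mul_sum, ← Finset.mul_sum, ← Finset.mul_sum, hm, ha, h1, sum_chi S hS]
  have h2 : (2 : ℝ) ^ n ≠ 0 := by positivity
  field_simp
  ring

theorem jointPar_nonneg (f : (Fin n → Bool) → Bool) (ε : ℝ) (h0 : 0 ≤ ε) (h1 : ε ≤ 1)
    (S : Finset (Fin n)) (u v : Bool) : 0 ≤ jointPar f ε S u v := by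
  unfold jointPar
  apply div_nonneg _ (by positivity)
  apply Finset.sum_nonneg
  intro x _
  apply Finset.sum_nonneg
  intro z _
  split_ifs
  · exact noise_nonneg ε h0 h1 z
  · exact le_refl 0

theorem psi_mono : MonotoneOn psi (Set.Icc (0 : ℝ) 1) := by
  apply monotoneOn_of_deriv_nonneg (convex_Icc 0 1) psi_cont.continuousOn
  · intro x hx
    rw [interior_Icc] at hx
    exact (psi_deriv x (by linarith [hx.1]) hx.2).differentiableAt.differentiableWithinAt
  · intro x hx
    rw [interior_Icc] at hx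
    rw [(psi_deriv x (by linarith [hx.1]) hx.2).deriv]
    exact lam_nonneg x ⟨hx.1.le, hx.2⟩

theorem parseval_ne (f : (Fin n → Bool) → Bool) :
    ∑ S ∈ (Finset.univ : Finset (Finset (Fin n))).erase ∅, P047.fhat (toR f) S ^ 2
      = 1 - P047.fhat (toR f) ∅ ^ 2 := by
  have h := P047.total_one (toR f) (toR_bool f) 0
  simp only [cf_zero] at h
  have h' : ∑ S : Finset (Fin n), P047.fhat (toR f) S ^ 2 = 1 := by
    rw [← h]
    apply Finset.sum_congr rfl
    intro S _
    norm_num
    ring
  rw [← Finset.add_sum_erase _ _ (Finset.mem_univ (∅ : Finset (Fin n)))] at h'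
  linarith

end Vale.Agent.P322
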