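import Mathlib
import Vale.Agent.P322.Par

namespace Vale.Agent.P322

open Finset

variable {n : ℕ}

/-- **All parities.** -/
theorem parities (f : (Fin n → Bool) → Bool) (ε : ℝ) (h0 : 0 ≤ ε) (h1 : ε ≤ 1 / 2) :
    ∑ S ∈ (Finset.univ : Finset (Finset (Fin n))).erase ∅, mutualInfo (jointPar f ε S)
      ≤ 1 - h2 ε := by
  have hl : 0 < Real.log 2 := Real.log_pos one_lt_two
  set μ := P047.fhat (toR f) ∅ with hμ
  set ρ := 1 - 2 * ε with hρ
  have hρ0 : 0 ≤ ρ := by linarith
  have hρ1 : ρ ≤ 1 := by linarith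
  have hρI : ρ ∈ Set.Icc (0 : ℝ) 1 := ⟨hρ0, hρ1⟩
  have hpsi : 0 ≤ psi ρ := psi_nonneg ρ hρI
  have hc : ∀ (S : Finset (Fin n)), S ≠ ∅ → ∀ δ : ℝ, 0 ≤ δ → δ ≤ 1 →
      0 ≤ 1 + (μ + (1 - 2 * δ) ^ S.card * P047.fhat (toR f) S) ∧
      0 ≤ 1 + (μ - (1 - 2 * δ) ^ S.card * P047.fhat (toR f) S) ∧
      0 ≤ 1 - (μ + (1 - 2 * δ) ^ S.card * P047.fhat (toR f) S) ∧
      0 ≤ 1 - (μ - (1 - 2 * δ) ^ S.card * P047.fhat (toR f) S) := by
    intro S hS δ hd0 hd1
    have q11 := jointPar_nonneg f δ hd0 hd1 S true true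
    have q10 := jointPar_nonneg f δ hd0 hd1 S true false
    have q01 := jointPar_nonneg f δ hd0 hd1 S false true
    have q00 := jointPar_nonneg f δ hd0 hd1 S false false
    rw [jointPar_formula f δ S hS] at q11 q10 q01 q00
    simp only [P047.sg_true, P047.sg_false] at q11 q10 q01 q00
    refine ⟨by linarith, by linarith, by linarith, by linarith⟩
  have hmi : ∀ S : Finset (Fin n), S ≠ ∅ → mutualInfo (jointPar f ε S) * Real.log 2
      = (psi (μ + ρ ^ S.card * P047.fhat (toR f) S) + psi (μ - ρ ^ S.card * P047.fhat (toR f) S)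
        - 2 * psi μ) / 4 := by
    intro S hS
    obtain ⟨c1, c2, c3, c4⟩ := hc S hS ε h0 (by linarith)
    have hj : jointPar f ε S = fun u v => (1 + P047.sg u * (μ
        + P047.sg v * (ρ ^ S.card * P047.fhat (toR f) S))) / 4 := by
      funext u v
      exact jointPar_formula f ε S hS u v
    rw [hj]
    exact mi_formula μ (ρ ^ S.card * P047.fhat (toR f) S) c1 c2 c3 c4
  have hpar := parseval_ne f
  rw [← hμ] at hpar
  have hmain : ∑ S ∈ (Finset.univ : Finset (Finset (Fin n))).erase ∅,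
      mutualInfo (jointPar f ε S) * Real.log 2 ≤ psi ρ / 2 := by
    by_cases hμ1 : μ ^ 2 = 1
    · have hz : ∀ S ∈ (Finset.univ : Finset (Finset (Fin n))).erase ∅,
          P047.fhat (toR f) S = 0 := by
        intro S hS
        have hs : ∑ T ∈ (Finset.univ : Finset (Finset (Fin n))).erase ∅,
            P047.fhat (toR f) T ^ 2 ≤ 0 := by linarith
        have hi : P047.fhat (toR f) S ^ 2
            ≤ ∑ T ∈ (Finset.univ : Finset (Finset (Fin n))).erase ∅, P047.fhat (toR f) T ^ 2 :=
          Finset.single_le_sum (f := fun T => P047.fhat (toR f) T ^ 2)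
            (fun T _ => sq_nonneg _) hS
        have : P047.fhat (toR f) S ^ 2 = 0 := le_antisymm (by linarith) (sq_nonneg _)
        exact pow_eq_zero_iff (two_ne_zero) |>.mp this
      have : ∑ S ∈ (Finset.univ : Finset (Finset (Fin n))).erase ∅,
          mutualInfo (jointPar f ε S) * Real.log 2 = 0 := by
        apply Finset.sum_eq_zero
        intro S hS
        rw [hmi S (Finset.ne_of_mem_erase hS), hz S hS]
        simp
        ring
      rw [this]
      linarith
    · have hsq : μ ^ 2 < 1 := by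
        have h3 : μ ^ 2 ≤ 1 := by
          have : 0 ≤ ∑ T ∈ (Finset.univ : Finset (Finset (Fin n))).erase ∅,
              P047.fhat (toR f) T ^ 2 := Finset.sum_nonneg (fun T _ => sq_nonneg _)
          linarith
        exact lt_of_le_of_ne h3 hμ1
      have hm1 : -1 < μ := by nlinarith
      have hm2 : μ < 1 := by nlinarith
      have hden : 0 < 1 - μ ^ 2 := by linarith
      have hterm : ∀ S ∈ (Finset.univ : Finset (Finset (Fin n))).erase ∅,
          mutualInfo (jointPar f ε S) * Real.log 2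
          ≤ P047.fhat (toR f) S ^ 2 * (psi ρ / (2 * (1 - μ ^ 2))) := by
        intro S hS
        have hne : S ≠ ∅ := Finset.ne_of_mem_erase hS
        have hcard : S.card ≠ 0 := by
          rw [Ne, Finset.card_eq_zero]
          exact hne
        obtain ⟨c1, c2, c3, c4⟩ := hc S hne 0 (le_refl 0) zero_le_one
        simp only [mul_zero, sub_zero, one_pow, one_mul] at c1 c2 c3 c4
        have hr0 : 0 ≤ ρ ^ S.card := pow_nonneg hρ0 _
        have hr1 : ρ ^ S.card ≤ ρ := pow_le_of_le_one hρ0 hρ1 hcard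
        have hrI : ρ ^ S.card ∈ Set.Icc (0 : ℝ) 1 := ⟨hr0, le_trans hr1 hρ1⟩
        have hk := keyK μ (P047.fhat (toR f) S) hm1 hm2 (by linarith) (by linarith)
          (by linarith) (by linarith) (ρ ^ S.card) hrI
        have hmono : psi (ρ ^ S.card) ≤ psi ρ := psi_mono hrI hρI hr1
        have hcoef : 0 ≤ 2 * P047.fhat (toR f) S ^ 2 / (1 - μ ^ 2) := by positivity
        have hk2 : 2 * P047.fhat (toR f) S ^ 2 / (1 - μ ^ 2) * psi (ρ ^ S.card)
            ≤ 2 * P047.fhat (toR f) S ^ 2 / (1 - μ ^ 2) * psi ρ :=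
          mul_le_mul_of_nonneg_left hmono hcoef
        rw [hmi S hne]
        have e : P047.fhat (toR f) S ^ 2 * (psi ρ / (2 * (1 - μ ^ 2)))
            = (2 * P047.fhat (toR f) S ^ 2 / (1 - μ ^ 2) * psi ρ) / 4 := by
          field_simp
          ring
        rw [e]
        linarith
      calc ∑ S ∈ (Finset.univ : Finset (Finset (Fin n))).erase ∅,
            mutualInfo (jointPar f ε S) * Real.log 2
          ≤ ∑ S ∈ (Finset.univ : Finset (Finset (Fin n))).erase ∅,
            P047.fhat (toR f) S ^ 2 * (psi ρ / (2 * (1 - μ ^ 2))) :=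
            Finset.sum_le_sum hterm
        _ = (1 - μ ^ 2) * (psi ρ / (2 * (1 - μ ^ 2))) := by
            rw [← Finset.sum_mul, hpar]
        _ = psi ρ / 2 := by
            field_simp
  rw [← Finset.sum_mul, ← h2_formula ε h0 h1] at hmain
  exact le_of_mul_le_mul_right hmain hl

end Vale.Agent.P322
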