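import Mathlib
import Vale.Agent.P322.ParMain

namespace Vale.Agent.P322

open Finset

variable {n : ℕ}

/-- sharp bound for a single parity of the noisy vector -/
theorem perParity (f : (Fin n → Bool) → Bool) (ε : ℝ) (h0 : 0 ≤ ε) (h1 : ε ≤ 1 / 2)
    (S : Finset (Fin n)) (hS : S ≠ ∅) :
    (1 - P047.fhat (toR f) ∅ ^ 2) * mutualInfo (jointPar f ε S)
      ≤ P047.fhat (toR f) S ^ 2 * (1 - h2 ((1 - (1 - 2 * ε) ^ S.card) / 2)) := by
  have hl : 0 < Real.log 2 := Real.log_pos one_lt_two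
  set μ := P047.fhat (toR f) ∅ with hμ
  set ρ := 1 - 2 * ε with hρ
  have hρ0 : 0 ≤ ρ := by linarith
  have hρ1 : ρ ≤ 1 := by linarith
  have hr0 : 0 ≤ ρ ^ S.card := pow_nonneg hρ0 _
  have hr1 : ρ ^ S.card ≤ 1 := pow_le_one₀ hρ0 hρ1
  have hrI : ρ ^ S.card ∈ Set.Icc (0 : ℝ) 1 := ⟨hr0, hr1⟩
  have hpsi : 0 ≤ psi (ρ ^ S.card) := psi_nonneg _ hrI
  have hform := h2_formula ((1 - ρ ^ S.card) / 2) (by linarith) (by linarith)
  have e0 : 1 - 2 * ((1 - ρ ^ S.card) / 2) = ρ ^ S.card := by ring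
  rw [e0] at hform
  have hc : ∀ δ : ℝ, 0 ≤ δ → δ ≤ 1 →
      0 ≤ 1 + (μ + (1 - 2 * δ) ^ S.card * P047.fhat (toR f) S) ∧
      0 ≤ 1 + (μ - (1 - 2 * δ) ^ S.card * P047.fhat (toR f) S) ∧
      0 ≤ 1 - (μ + (1 - 2 * δ) ^ S.card * P047.fhat (toR f) S) ∧
      0 ≤ 1 - (μ - (1 - 2 * δ) ^ S.card * P047.fhat (toR f) S) := by
    intro δ hd0 hd1
    have q11 := jointPar_nonneg f δ hd0 hd1 S true true
    have q10 := jointPar_nonneg f δ hd0 hd1 S true false
    have q01 := jointPar_nonneg f δ hd0 hd1 S false true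
    have q00 := jointPar_nonneg f δ hd0 hd1 S false false
    rw [jointPar_formula f δ S hS] at q11 q10 q01 q00
    simp only [P047.sg_true, P047.sg_false] at q11 q10 q01 q00
    refine ⟨by linarith, by linarith, by linarith, by linarith⟩
  have hmi : mutualInfo (jointPar f ε S) * Real.log 2
      = (psi (μ + ρ ^ S.card * P047.fhat (toR f) S) + psi (μ - ρ ^ S.card * P047.fhat (toR f) S)
        - 2 * psi μ) / 4 := by
    obtain ⟨c1, c2, c3, c4⟩ := hc ε h0 (by linarith)
    have hj : jointPar f ε S = fun u v => (1 + P047.sg u * (μ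
        + P047.sg v * (ρ ^ S.card * P047.fhat (toR f) S))) / 4 := by
      funext u v
      exact jointPar_formula f ε S hS u v
    rw [hj]
    exact mi_formula μ (ρ ^ S.card * P047.fhat (toR f) S) c1 c2 c3 c4
  obtain ⟨c1, c2, c3, c4⟩ := hc 0 (le_refl 0) zero_le_one
  simp only [mul_zero, sub_zero, one_pow, one_mul] at c1 c2 c3 c4
  have hmain : (1 - μ ^ 2) * mutualInfo (jointPar f ε S) * Real.log 2
      ≤ P047.fhat (toR f) S ^ 2 * (1 - h2 ((1 - ρ ^ S.card) / 2)) * Real.log 2 := by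
    rw [mul_assoc, mul_assoc, hform, hmi]
    by_cases hμ1 : μ ^ 2 = 1
    · rw [hμ1]
      have : 0 ≤ P047.fhat (toR f) S ^ 2 * (psi (ρ ^ S.card) / 2) := by positivity
      linarith
    · have hm1' : -1 ≤ μ := by linarith
      have hm2' : μ ≤ 1 := by linarith
      have hm1 : -1 < μ := by
        rcases lt_or_eq_of_le hm1' with h | h
        · exact h
        · exfalso; apply hμ1; rw [← h]; norm_num
      have hm2 : μ < 1 := by
        rcases lt_or_eq_of_le hm2' with h | h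
        · exact h
        · exfalso; apply hμ1; rw [h]; norm_num
      have hden : 0 < 1 - μ ^ 2 := by nlinarith
      have hk := keyK μ (P047.fhat (toR f) S) hm1 hm2 (by linarith) (by linarith)
        (by linarith) (by linarith) (ρ ^ S.card) hrI
      have e : P047.fhat (toR f) S ^ 2 * (psi (ρ ^ S.card) / 2)
          = (1 - μ ^ 2) * ((2 * P047.fhat (toR f) S ^ 2 / (1 - μ ^ 2) * psi (ρ ^ S.card)) / 4) := by
        field_simp
        ring
      rw [e]
      apply mul_le_mul_of_nonneg_left _ hden.le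
      linarith
  exact le_of_mul_le_mul_right hmain hl

end Vale.Agent.P322
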